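import Vale.Agent.P181.TR.H333.Defs
import Vale.Agent.P181.TR.H797.CoreR
import Vale.Agent.P181.TR.H410.T9R

set_option autoImplicit false

/-!
# P181, TR: `CoreZ` from the blocks (a variant of helper797's `CoreR`)
-/

namespace Vale.Agent.P181.TR.H333

open Finset
open Vale.Agent.P181.T4 (HW ex ex_of_lt ex_anti)
open Vale.Agent.P181.H280 (plethMult)
open Vale.Agent.P181.SZ
open Vale.Agent.P181.TL (KK BalB)
open Vale.Agent.P181.TL.H797 (bal bal_le sum_bal)
open Vale.Agent.P181.TR
open Vale.Agent.P181.TR.H797 (sum_ex sum_split Aa Aa_zero Aa_top Aa_step sum_Aa cc bounds)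

/-- The numbers behind `CoreZ`. -/
lemma numZ {a q m t A am W B l0 l1 Y r S x : ℕ} (ha : 200 ≤ a) (hq5 : 5 ≤ q)
    (ht16 : 16 * t ≤ a ^ 2 * q) (hm : 8 * q ≤ m) (haq : 40 * q ≤ a) (hA : A * (a * q) ≤ t)
    (ham : am * m ≤ a) (hY : 16 * (q * Y * (m + r)) ≤ a)
    (hW : W ≤ r * S + a * (r * (r + 1)) + t)
    (hl0 : l1 + 3 * q * a ^ 2 + 5 * (r * S + a * (r * (r + 1)) + t) ≤ l0 + x) (hx : x ≤ l1)
    (hB : a * B = l0 + W) :
    2 * (A + 2 + q * Y * (m + r) + q * am + q + 1) ≤ a ∧ 3 * q * a * a + 6 * W ≤ a * B := by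
  have ha0 : 0 < a := by omega
  refine ⟨?_, ?_⟩
  · have h1 : 16 * A ≤ a := by
      have h2 : (16 * A) * (a * q) ≤ a * (a * q) := by nlinarith
      exact Nat.le_of_mul_le_mul_right h2 (by positivity)
    have h3 : 8 * (q * am) ≤ a := by
      calc 8 * (q * am) = am * (8 * q) := by ring
        _ ≤ am * m := Nat.mul_le_mul_left _ hm
        _ ≤ a := ham
    omega
  · have e4 : 3 * q * a * a = 3 * q * a ^ 2 := by ring
    rw [e4, hB]
    omega

/-- **(Z7)** -/
theorem coreZ (h1 : UpR) (h2 : BalB) (h6 : LowR) (hG : GrowR) : CoreZ := by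
  intro a b k r q m Y t G lam hsum hanti hr har ht hq hm haq hY hY2 hGd hgap hb hgr hl0
  have ha0 : 0 < a := by omega
  have hq5 : 5 ≤ q := by rw [hq]; exact Nat.le_add_right _ _
  have ha200 : 200 ≤ a := by omega
  obtain ⟨e, hedef⟩ : ∃ e : ℕ → ℕ, e = ex lam := ⟨_, rfl⟩
  have he : ∀ i j, i ≤ j → e j ≤ e i := fun i j hij => by
    rw [hedef]
    exact ex_anti hanti hij
  have heT : e (r + 1) = ta (tl lam) 0 := by
    rw [hedef, ex_of_lt lam (by omega : r + 1 < k + 1 + r + 1)]
    rfl
  have hel : ∀ l : Fin r, tp (tl lam) l = e (l + 1) := fun l => by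
    rw [hedef, ex_of_lt lam (by omega : (l : ℕ) + 1 < k + 1 + r + 1)]
    rfl
  have her : e (r + 1) + G ≤ e r := by
    have h := hgap ⟨r - 1, by omega⟩
    rw [hel] at h
    have h' : ((⟨r - 1, by omega⟩ : Fin r) : ℕ) + 1 = r := by
      change r - 1 + 1 = r
      omega
    rw [h', ← heT] at h
    omega
  obtain ⟨c, hc⟩ : ∃ c, c = cc a r G e := ⟨_, rfl⟩
  obtain ⟨A, hAdef⟩ : ∃ A, A = Aa a r c := ⟨_, rfl⟩
  have hbd : ∀ s, 1 ≤ s → s ≤ r → A s + (e (r + 1) + G) ≤ e s ∧
      e s ≤ A s + (e (r + 1) + G) + 2 * a * (r + 1 - s) := by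
    intro s hs hsr
    have h := bounds (a := a) (r := r) (G := G) (e := e) ha0 he her (r - s) (by omega)
    rw [show r - (r - s) = s by omega, show r - s + 1 = r + 1 - s by omega] at h
    rw [hAdef, hc]
    exact h
  have hA01 : A 0 = A 1 := by rw [hAdef]; exact Aa_zero a r c
  have hAtop : ∀ s, r + 1 ≤ s → A s = 0 := fun s hs => by rw [hAdef]; exact Aa_top a r c hs
  have hAle : ∀ s, A s ≤ e s := by
    intro s
    rcases Nat.lt_or_ge r s with h | h
    · rw [hAtop s (by omega)]
      exact Nat.zero_le _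
    · rcases Nat.eq_zero_or_pos s with h0 | h0
      · rw [h0, hA01]
        have h3 := (hbd 1 le_rfl (by omega)).1
        have h4 := he 0 1 (by omega)
        omega
      · have h3 := (hbd s h0 h).1
        omega
  set lam' : Fin (k + 1 + r + 1) → ℕ := fun i => lam i - A i with hlam'
  have hexn : ∀ i : Fin (k + 1 + r + 1), lam i = e i := fun i => by
    rw [hedef, ex_of_lt lam i.2]
  have hback : ∀ i, lam' i + A i = lam i := by
    intro i
    have h3 := hAle i
    rw [← hexn i] at h3
    rw [hlam']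
    exact Nat.sub_add_cancel h3
  -- antitone
  have hanti' : Antitone lam' := by
    have hstep : ∀ s, e (s + 1) - A (s + 1) ≤ e s - A s := by
      intro s
      have h0 := he s (s + 1) (by omega)
      rcases Nat.lt_or_ge r s with h | h
      · rw [hAtop s (by omega), hAtop (s + 1) (by omega)]
        omega
      · rcases Nat.eq_zero_or_pos s with hs0 | hs0
        · subst hs0
          change e 1 - A 1 ≤ e 0 - A 0
          rw [hA01]
          have h0' : e 1 ≤ e 0 := he 0 1 (by omega)
          omega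
        · rcases Nat.eq_or_lt_of_le h with h3 | h3
          · rw [h3, hAtop (r + 1) le_rfl]
            have := (hbd r (by omega) le_rfl).1
            omega
          · have h4 : A s = A (s + 1) + 2 * a * c (s + 1) := by
              rw [hAdef]
              exact Aa_step a r c hs0 h
            have h5 : c (s + 1) = (e s - e (s + 1)) / (2 * a) := by
              rw [hc, cc, if_pos (by omega)]
              rfl
            have h6 := Nat.mul_div_le (e s - e (s + 1)) (2 * a)
            rw [h4, h5]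
            omega
    have hmono : ∀ i j, i ≤ j → e j - A j ≤ e i - A i := by
      intro i j hij
      induction j, hij using Nat.le_induction with
      | base => exact le_rfl
      | succ j _ ih => exact (hstep j).trans ih
    intro i j hij
    have h3 := hmono i j hij
    rw [← hexn i, ← hexn j] at h3
    exact h3
  -- the sum
  have hsumA : ∑ i : Fin (k + 1 + r + 1), A i = a * ∑ j ∈ Icc 2 (r + 1), 2 * j * c j := by
    rw [hAdef]
    exact sum_Aa a r c (by omega)
  have htot : ∑ i, lam' i + a * ∑ j ∈ Icc 2 (r + 1), 2 * j * c j = a * b := by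
    rw [← hsumA, ← Finset.sum_add_distrib, ← hsum]
    exact Finset.sum_congr rfl fun i _ => hback i
  obtain ⟨B, hB⟩ : ∃ B, B = ∑ j ∈ Icc 2 (r + 1), 2 * j * c j := ⟨_, rfl⟩
  rw [← hB] at htot
  have hBb : B ≤ b := by
    have h3 : a * B ≤ a * b := by omega
    exact Nat.le_of_mul_le_mul_left h3 ha0
  have hsum' : ∑ i, lam' i = a * (b - B) := by
    rw [Nat.mul_sub]
    omega
  -- the rows
  have htl : ∀ i : Fin (k + 1 + r), tl lam' i = e (i + 1) - A (i + 1) := fun i => by
    rw [tl, hlam']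
    change lam i.succ - A ((i.succ : Fin (k + 1 + r + 1)) : ℕ) = _
    rw [hexn, Fin.val_succ]
  have htp' : ∀ l : Fin r, tp (tl lam') l = e (l + 1) - A (l + 1) := fun l => htl _
  have hta' : ta (tl lam') = ta (tl lam) := by
    funext i
    have h3 : ta (tl lam') i = e (r + i + 1) - A (r + i + 1) := htl _
    rw [h3, hAtop _ (by omega), Nat.sub_zero, hedef, ex_of_lt lam (by omega)]
    rfl
  have hsum0 : ∀ f : Fin (k + 1 + r + 1) → ℕ, ∑ i, f i = f 0 + ∑ i, tl f i := fun f => by
    rw [Fin.sum_univ_succ]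
    rfl
  have hW : ∑ i, tl lam' i ≤ r * (e (r + 1) + G) + a * (r * (r + 1)) + t := by
    rw [sum_split (tl lam'), hta', ← ht]
    refine Nat.add_le_add_right ?_ t
    calc ∑ l : Fin r, tp (tl lam') l
        ≤ ∑ l : Fin r, ((e (r + 1) + G) + 2 * a * (r - l)) := by
          refine Finset.sum_le_sum fun l _ => ?_
          rw [htp']
          have h3 := (hbd (l + 1) (by omega) (by omega)).2
          rw [show r + 1 - ((l : ℕ) + 1) = r - l by omega] at h3
          omega
      _ = r * (e (r + 1) + G) + a * (r * (r + 1)) := by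
          rw [Finset.sum_add_distrib, Finset.sum_const, Finset.card_univ, Fintype.card_fin,
            smul_eq_mul, ← Finset.mul_sum]
          congr 1
          have h4 : ∑ l : Fin r, (r - (l : ℕ)) = ∑ l ∈ range r, (r - l) :=
            Fin.sum_univ_eq_sum_range (fun l => r - l) r
          have h5 : ∑ l ∈ range r, (r - l) = ∑ l ∈ range r, (l + 1) := by
            rw [← Finset.sum_range_reflect]
            refine Finset.sum_congr rfl fun l hl => ?_
            have := Finset.mem_range.1 hl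
            omega
          have h6 : (∑ l ∈ range r, (l + 1)) * 2 = r * (r + 1) := by
            have h7 := Finset.sum_range_id_mul_two (r + 1)
            rw [Finset.sum_range_succ'] at h7
            simpa [mul_comm] using h7
          rw [h4, h5, ← h6]
          ring
  have ht16 : 16 * t ≤ a ^ 2 * q := by
    have h5 := Nat.lt_mul_div_succ (16 * t) (show 0 < a ^ 2 by positivity)
    have h6 : 16 * t / a ^ 2 + 1 ≤ q := by
      rw [hq]
      generalize 16 * t / a ^ 2 = y
      omega
    calc 16 * t ≤ a ^ 2 * (16 * t / a ^ 2 + 1) := h5.le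
      _ ≤ a ^ 2 * q := Nat.mul_le_mul_left _ h6
  have hAq : t / a / q * (a * q) ≤ t := by
    rw [Nat.div_div_eq_div_mul]
    exact Nat.div_mul_le_self t (a * q)
  have hl0' : tl lam 0 + 3 * q * a ^ 2 +
      5 * (r * (e (r + 1) + G) + a * (r * (r + 1)) + t) ≤ lam' 0 + A 0 := by
    have h3 := hback 0
    have h4 : A ((0 : Fin (k + 1 + r + 1)) : ℕ) = A 0 := rfl
    rw [h4] at h3
    rw [heT, h3]
    exact hl0
  have hA1 : A 0 ≤ tl lam 0 := by
    have h3 := hAle 1
    have h4 : tl lam 0 = e 1 := by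
      rw [hedef, ex_of_lt lam (by omega : 1 < k + 1 + r + 1)]
      have h5 : (0 : Fin (k + 1 + r)).succ = (⟨1, by omega⟩ : Fin (k + 1 + r + 1)) := by
        apply Fin.ext
        rfl
      rw [tl, h5]
    rw [h4, hA01]
    exact h3
  obtain ⟨n1, n2⟩ := numZ (B := b - B) (l0 := lam' 0) (l1 := tl lam 0)
    (W := ∑ i, tl lam' i) (am := a / m) (S := e (r + 1) + G) (x := A 0) ha200 hq5
    ht16 hm haq hAq (Nat.div_mul_le_self a m) hY2 hW hl0' hA1
    (by rw [← hsum', hsum0])
  have e6 := h6 a (b - B) k r q m Y t lam' (bal a t) hsum' hanti' ha0 (by omega) (by omega) hY hr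
    har (by rw [hta']; exact ht) (fun i => rfl) n1 (fun l => by
      rw [hta', htp', ← hGd, ← heT]
      have h3 := (hbd (l + 1) (by omega) (by omega)).1
      omega) n2
  rw [hta'] at e6
  -- peeling
  have hpos2 := Vale.Agent.P181.H502.pos_E_sum (m := k + 1 + r + 1) (R := r + 1) (a := a)
    (by omega) (by omega) c (Icc 2 (r + 1)) (fun j hj => (Finset.mem_Icc.1 hj).2)
  have e7 := Vale.Agent.P181.FR.plethMult_mul (b := b - B) (lam := lam') hpos2
  have e8 : b - B + ∑ j ∈ Icc 2 (r + 1), 2 * j * c j = b := by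
    rw [← hB]
    omega
  have e9 : lam' + ∑ j ∈ Icc 2 (r + 1), (2 * a * c j) • Vale.Agent.P181.FR.om (k + 1 + r + 1) j =
      lam := by
    funext i
    rw [Pi.add_apply, Finset.sum_apply, ← hback i]
    congr 1
    rw [hAdef, Aa]
    refine Finset.sum_congr rfl fun j _ => ?_
    rw [Pi.smul_apply, smul_eq_mul, Vale.Agent.P181.FR.om]
    by_cases hi : (i : ℕ) < j
    · rw [if_pos hi, if_pos hi, mul_one]
    · rw [if_neg hi, if_neg hi, mul_zero]
  rw [e8, e9] at e7
  have u1 := h1 a b k r lam (by omega) (by omega)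
  have u2 := h2 (k + 1) a (ta (tl lam)) (bal a t) ha0 (bal_le a _)
    (by rw [sum_bal ha0 t]; exact ht)
  rw [← ht] at u2
  have htD : t ≤ D2 lam := by
    rw [ht]
    exact Vale.Agent.P181.TR.H410.ta_le_D2 hr lam
  have hg := hG a b q r Y t (D2 lam) ha0 hq5 hr hY hb htD hgr
  obtain ⟨K, hK⟩ : ∃ K, K = Module.finrank ℂ (KK (k + 1) (Fin a) (bal a t) (ta (tl lam))) :=
    ⟨_, rfl⟩
  rw [← hK] at u2 e6
  calc plethMult a b (k + 1 + r + 1) lam
      ≤ (a + b).choose a * ((D2 lam + a - 1).choose (a - 1)) ^ (r - 1) *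
        Module.finrank ℂ (HW (k + 1) (Fin a) (ta (tl lam))) := u1
    _ ≤ (a + b).choose a * ((D2 lam + a - 1).choose (a - 1)) ^ (r - 1) *
        ((a + t - 1).choose t * K) := Nat.mul_le_mul_left _ u2
    _ = (a + b).choose a * ((D2 lam + a - 1).choose (a - 1)) ^ (r - 1) *
        (a + t - 1).choose t * K := by ring
    _ ≤ Y ^ ((q - 1) * (r - 1) * a) * K := Nat.mul_le_mul_right _ hg
    _ ≤ plethMult (b - B) a (k + 1 + r + 1) lam' := e6
    _ ≤ plethMult b a (k + 1 + r + 1) lam := e7

end Vale.Agent.P181.TR.H333
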