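import Vale.Agent.P181.TR.H333.Defs
import Vale.Agent.P181.TR.H410.T9R

set_option autoImplicit false

/-!
# P181, TR: block Z8 (a variant of helper410's `T9R`)

Inputs: `CoreZ`, the polylog theorem (`PLH`) and few boxes below row two (`FewH`).
-/

namespace Vale.Agent.P181.TR.H333

open Filter
open Vale.Agent.P181.TL.H410
open Vale.Agent.P181.TR
open Vale.Agent.P181.TR.H410 (pickY ta_le_D2 few_of numsE numsV)
open Vale.Agent.P181.SZ (tl)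
open Vale.Agent.P181.H280 (plethMult)

/-- The driver. -/
theorem driveZ (hC : CoreZ) {a b k r : ℕ} {lam : Fin (k + 1 + r + 1) → ℕ}
    (hsum : ∑ i, lam i = a * b) (hanti : Antitone lam) (hr2 : 2 ≤ r) (ha : 0 < a)
    (hbt : b ≤ D2 lam + a) (h17 : tl lam 0 + 17 * a ^ 2 ≤ lam 0)
    (hT : 20 * (r * ta (tl lam) 0 + ∑ i, ta (tl lam) i) ≤ a ^ 2)
    {Q R V : ℝ} (hR : 2 ≤ R) (hrR : 40 * (r : ℝ) ≤ R) (hQ5 : 5 ≤ Q)
    (h2 : ∀ l : Fin r, 4 * (a : ℝ) ^ 2 ≤ R * ((tp (tl lam) l : ℝ) - ta (tl lam) 0))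
    (hV : 1 ≤ V) (hV2 : 2 * (a : ℝ) + D2 lam ≤ a * V)
    (hE : 432 * (16 * Q ^ 2 * R * (8 * Q + Q ^ 2 * R + 1 + R)) ^ 4 * V ^ 3 ≤ (a : ℝ) ^ 4) :
    plethMult a b (k + 1 + r + 1) lam ≤ plethMult b a (k + 1 + r + 1) lam := by
  obtain ⟨t, ht⟩ : ∃ t, t = ∑ i, ta (tl lam) i := ⟨_, rfl⟩
  rw [← ht] at hT
  have ha0 : (0 : ℝ) < a := by exact_mod_cast ha
  have ha2 : (0 : ℝ) < (a : ℝ) ^ 2 := by positivity
  obtain ⟨q, hq⟩ : ∃ q, q = 5 + 16 * t / a ^ 2 := ⟨_, rfl⟩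
  have hpa : 0 < a ^ 2 := by positivity
  have hq5' : q = 5 := by
    rw [hq, Nat.div_eq_of_lt (by omega)]
  have hqQ : (q : ℝ) ≤ Q := by
    rw [hq5']
    exact_mod_cast hQ5
  have hq5 : 5 ≤ q := hq5'.ge
  have hq0 : (5 : ℝ) ≤ q := by exact_mod_cast hq5
  have hq2 : (q : ℝ) ^ 2 ≤ Q ^ 2 := pow_le_pow_left₀ (by linarith) hqQ 2
  have hR0 : 0 < R := by linarith
  have hQR : 0 ≤ Q ^ 2 * R := by positivity
  obtain ⟨m, hm⟩ : ∃ m, m = 8 * q + ⌈Q ^ 2 * R⌉₊ := ⟨_, rfl⟩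
  have hm1 : Q ^ 2 * R ≤ m := by
    rw [hm]
    push_cast
    have := Nat.le_ceil (Q ^ 2 * R)
    linarith
  have hm2 : (m : ℝ) ≤ 8 * Q + Q ^ 2 * R + 1 := by
    rw [hm]
    push_cast
    have := (Nat.ceil_lt_add_one hQR).le
    linarith
  have hm0 : 0 < m := by omega
  have hmR : (0 : ℝ) < m := by exact_mod_cast hm0
  have hr0 : (0 : ℝ) ≤ r := Nat.cast_nonneg _
  obtain ⟨Y, hY1, hY2, hY3⟩ := pickY hV
  have hY0 : (1 : ℝ) ≤ Y := by exact_mod_cast hY1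
  obtain ⟨W, hW⟩ : ∃ W, W = 8 * Q + Q ^ 2 * R + 1 + R := ⟨_, rfl⟩
  rw [← hW] at hE
  have hrR' : (r : ℝ) ≤ R := by linarith
  have hmW : (m : ℝ) + r ≤ W := by rw [hW]; linarith
  have hW1 : 1 + R ≤ W := by rw [hW]; linarith
  have hW0 : 0 < W := by linarith
  obtain ⟨E, hEe⟩ : ∃ E, E = 16 * Q ^ 2 * R * W := ⟨_, rfl⟩
  rw [← hEe] at hE
  have hE0 : 0 < E := by rw [hEe]; positivity
  -- `E Y ≤ a`
  have hEY : E * Y ≤ a := by
    have h3 : (E * Y) ^ 4 ≤ (a : ℝ) ^ 4 := by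
      calc (E * Y) ^ 4 = E ^ 4 * (Y : ℝ) ^ 4 := by ring
        _ ≤ E ^ 4 * (432 * V ^ 3) := by gcongr
        _ = 432 * E ^ 4 * V ^ 3 := by ring
        _ ≤ (a : ℝ) ^ 4 := hE
    exact (pow_le_pow_iff_left₀ (by positivity) (by positivity) (by norm_num)).1 h3
  have hEa : E ≤ a := by
    refine le_trans ?_ hEY
    have := mul_le_mul_of_nonneg_left hY0 hE0.le
    linarith
  -- consequences of `E ≤ a`
  obtain ⟨hn1, hn2, hn3, hn4, hn5⟩ := numsE hQ5 hR hW1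
  rw [← hEe] at hn1 hn2 hn3 hn5
  have hE3 : 40 * Q ≤ a := hn1.trans hEa
  have hc1 : 16 * (r + 1) ≤ a := by
    have : 16 * ((r : ℝ) + 1) ≤ a := by linarith
    exact_mod_cast this
  have hc2 : 5 * (r * (r + 1)) ≤ a := by
    have h3 : (r : ℝ) * (r + 1) ≤ R * (R + 1) := by gcongr
    have : 5 * ((r : ℝ) * (r + 1)) ≤ a := by linarith
    exact_mod_cast this
  have hc3 : 16 * (q * Y * (m + r)) ≤ a := by
    have : 16 * ((q : ℝ) * Y * (m + r)) ≤ a := by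
      refine le_trans ?_ hEY
      have h3 : (q : ℝ) * (m + r) ≤ Q * W := by gcongr
      calc 16 * ((q : ℝ) * Y * (m + r)) = 16 * ((q : ℝ) * (m + r)) * Y := by ring
        _ ≤ 16 * (Q ^ 2 * R * W) * Y := by
            have := h3.trans hn4
            gcongr
        _ = E * Y := by rw [hEe]; ring
    exact_mod_cast this
  -- the gap
  obtain ⟨x, hx⟩ : ∃ x, x = q ^ 2 * a * (a / m) := ⟨_, rfl⟩
  have hxR : R * (x : ℝ) ≤ (a : ℝ) ^ 2 := by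
    have hdiv : ((a / m : ℕ) : ℝ) ≤ (a : ℝ) / m := Nat.cast_div_le
    have h6 : (x : ℝ) ≤ (q : ℝ) ^ 2 * a * (a / m) := by
      rw [hx]
      push_cast
      gcongr
    have h7 : R * (x : ℝ) * m ≤ (a : ℝ) ^ 2 * m := by
      calc R * (x : ℝ) * m ≤ R * ((q : ℝ) ^ 2 * a * (a / m)) * m := by gcongr
        _ = R * (q : ℝ) ^ 2 * (a : ℝ) ^ 2 := by field_simp
        _ ≤ R * Q ^ 2 * (a : ℝ) ^ 2 := by gcongr
        _ = (Q ^ 2 * R) * (a : ℝ) ^ 2 := by ring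
        _ ≤ m * (a : ℝ) ^ 2 := by gcongr
        _ = (a : ℝ) ^ 2 * m := by ring
    exact le_of_mul_le_mul_right h7 hmR
  obtain ⟨y, hy⟩ : ∃ y, y = q ^ 2 * Y * (m + r) * a := ⟨_, rfl⟩
  have hyR : R * (y : ℝ) ≤ (a : ℝ) ^ 2 := by
    have h3 : (q : ℝ) ^ 2 * (m + r) ≤ Q ^ 2 * W := by gcongr
    have h4 : R * ((q : ℝ) ^ 2 * (m + r)) * Y ≤ E * Y := by
      have h5 : R * ((q : ℝ) ^ 2 * (m + r)) ≤ E := by
        calc R * ((q : ℝ) ^ 2 * (m + r)) ≤ R * (Q ^ 2 * W) := by gcongr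
          _ ≤ 16 * (R * (Q ^ 2 * W)) := by
              have : 0 ≤ R * (Q ^ 2 * W) := by positivity
              linarith
          _ = E := by rw [hEe]; ring
      gcongr
    calc R * (y : ℝ) = R * ((q : ℝ) ^ 2 * (m + r)) * Y * a := by
          rw [hy]
          push_cast
          ring
      _ ≤ E * Y * a := by gcongr
      _ ≤ (a : ℝ) * a := by gcongr
      _ = (a : ℝ) ^ 2 := by ring
  obtain ⟨z, hz⟩ : ∃ z, z = (q ^ 2 + 3 * q + 8 * (r + 1)) * a := ⟨_, rfl⟩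
  have hzR : R * (z : ℝ) ≤ (a : ℝ) ^ 2 := by
    have h3 : R * ((q : ℝ) ^ 2 + 3 * q + 8 * (r + 1)) ≤ a := by
      refine le_trans ?_ (hn5.trans hEa)
      gcongr
    calc R * (z : ℝ) = R * ((q : ℝ) ^ 2 + 3 * q + 8 * (r + 1)) * a := by
          rw [hz]
          push_cast
          ring
      _ ≤ (a : ℝ) * a := by gcongr
      _ = (a : ℝ) ^ 2 := by ring
  obtain ⟨G, hG⟩ : ∃ G, G = y + x + z := ⟨_, rfl⟩
  have hGl : ∀ l : Fin r, G + ta (tl lam) 0 ≤ tp (tl lam) l := by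
    intro l
    have h8 : R * (G : ℝ) ≤ R * ((tp (tl lam) l : ℝ) - ta (tl lam) 0) := by
      refine le_trans ?_ (h2 l)
      rw [hG]
      push_cast
      linarith
    have h10 := le_of_mul_le_mul_left h8 hR0
    have : ((G + ta (tl lam) 0 : ℕ) : ℝ) ≤ ((tp (tl lam) l : ℕ) : ℝ) := by
      push_cast
      linarith
    exact_mod_cast this
  have hG2 : G = q * a * (q * Y * (m + r) + q * (a / m) + q + 3) + 8 * (r + 1) * a := by
    rw [hG, hy, hx, hz]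
    ring
  have hGr : 40 * (r * G) ≤ 3 * a ^ 2 := by
    have h8 : R * (G : ℝ) ≤ 3 * (a : ℝ) ^ 2 := by
      rw [hG]
      push_cast
      linarith
    have h9 : 40 * ((r : ℝ) * G) ≤ 3 * (a : ℝ) ^ 2 := by
      refine le_trans ?_ h8
      calc 40 * ((r : ℝ) * G) = (40 * (r : ℝ)) * G := by ring
        _ ≤ R * G := by gcongr
    exact_mod_cast h9
  refine hC a b k r q m Y t G lam hsum hanti hr2 hc1 ht hq (by omega) ?_ hY1 hc3 hG2 hGl hbt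
    ?_ ?_
  · have : ((40 * q : ℕ) : ℝ) ≤ (a : ℝ) := by
      push_cast
      linarith
    exact_mod_cast this
  · have : 27 * (2 * (a : ℝ) + D2 lam) ^ 3 ≤ (a : ℝ) ^ 3 * (Y : ℝ) ^ 4 := by
      calc 27 * (2 * (a : ℝ) + D2 lam) ^ 3 ≤ 27 * (a * V) ^ 3 := by gcongr
        _ = (a : ℝ) ^ 3 * (27 * V ^ 3) := by ring
        _ ≤ (a : ℝ) ^ 3 * (Y : ℝ) ^ 4 := by gcongr
    exact_mod_cast this
  · have h14 : 3 * q * a ^ 2 = 15 * a ^ 2 := by rw [hq5']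
    have h15 : 5 * (a * (r * (r + 1))) ≤ a ^ 2 := by
      calc 5 * (a * (r * (r + 1))) = a * (5 * (r * (r + 1))) := by ring
        _ ≤ a * a := Nat.mul_le_mul_left _ hc2
        _ = a ^ 2 := by ring
    have h16 : r * (ta (tl lam) 0 + G) = r * ta (tl lam) 0 + r * G := by ring
    rw [h14, h16]
    omega

/-- **(Z8)** -/
theorem twoLongZ_of (hE : CoreZ) (hPL : PLH) (hF : FewH) : TwoLongZ := by
  intro C₀ c₀ hC₀ hc₀
  obtain ⟨C', c', hP⟩ := hPL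
  obtain ⟨C1, hC1, hC1'⟩ : ∃ C1 : ℝ, 0 ≤ C1 ∧ C' ≤ C1 := ⟨|C'|, abs_nonneg _, le_abs_self _⟩
  obtain ⟨e, hee1, hee2⟩ : ∃ e : ℕ, c' ≤ e ∧ c₀ ≤ e :=
    ⟨c' + ⌈c₀⌉₊, Nat.le_add_right _ _, (Nat.le_ceil c₀).trans (by
      push_cast
      linarith [(Nat.cast_nonneg c' : (0 : ℝ) ≤ c')])⟩
  obtain ⟨Q0, hQ0⟩ : ∃ Q0, Q0 = 5 + C1 := ⟨_, rfl⟩
  have hQ1 : 0 < Q0 := by rw [hQ0]; positivity
  obtain ⟨M1, hM1⟩ : ∃ M1, M1 = 8 * Q0 + 40 * Q0 ^ 2 * (C₀ + 1) + 1 + 40 * (C₀ + 1) := ⟨_, rfl⟩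
  have hM1' : 0 < M1 := by rw [hM1]; positivity
  obtain ⟨E0, hE0⟩ : ∃ E0, E0 = 640 * Q0 ^ 2 * (C₀ + 1) * M1 := ⟨_, rfl⟩
  have hE0' : 0 < E0 := by rw [hE0]; positivity
  obtain ⟨K0, hK0⟩ : ∃ K0, K0 = 432 * E0 ^ 4 * (C1 + 2) ^ 3 + 2 := ⟨_, rfl⟩
  obtain ⟨a₀, ha₀⟩ := ev_log K0 (e * 27)
  obtain ⟨C, hC⟩ : ∃ C, C = C1 * a₀ + 1 := ⟨_, rfl⟩
  have hCpos : 0 < C := by rw [hC]; positivity
  refine ⟨C, ((e + 1 : ℕ) : ℝ), hCpos, by positivity, ?_⟩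
  intro a b k r lam hanti hsum ha hr2 hr hlam hT ht h17
  rw [Real.rpow_natCast] at ht
  have hL := one_le_L a
  obtain ⟨L, hLe⟩ : ∃ L, L = 1 + Real.log a := ⟨_, rfl⟩
  rw [← hLe] at hL hlam ht hr
  have hP1 := hP a b
  have ha1 := ha₀ a
  rw [← hLe] at hP1 ha1
  rw [pow_mul] at ha1
  obtain ⟨P, hPe⟩ : ∃ P, P = L ^ e := ⟨_, rfl⟩
  rw [← hPe] at ha1
  have hP0 : 1 ≤ P := by rw [hPe]; exact one_le_pow₀ hL
  have hLP : L ^ c' ≤ P := by rw [hPe]; exact pow_le_pow_right₀ hL hee1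
  have hLP2 : L ^ c₀ ≤ P := by
    rw [hPe, ← Real.rpow_natCast]
    exact Real.rpow_le_rpow_of_exponent_le hL hee2
  have hLP3 : P ≤ L ^ (e + 1) := by
    rw [hPe]
    exact pow_le_pow_right₀ hL (Nat.le_succ _)
  have haR : (1 : ℝ) ≤ a := by exact_mod_cast ha
  have hbR : (0 : ℝ) ≤ b := Nat.cast_nonneg b
  have ht0 : (0 : ℝ) ≤ D2 lam := Nat.cast_nonneg _
  have ht1 : C * P * a ≤ D2 lam := by
    refine le_trans ?_ ht
    gcongr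
  have ht2 : (D2 lam : ℝ) ≤ a * b := by
    have h : D2 lam ≤ ∑ i, lam i := by
      rw [D2]
      refine Finset.sum_le_sum fun i _ => ?_
      split_ifs
      · exact le_rfl
      · exact Nat.zero_le _
    rw [hsum] at h
    exact_mod_cast h
  -- the polylog theorem
  by_cases hb : C1 * a * P ≤ b
  · refine hP1 ?_ _ _
    refine le_trans ?_ hb
    have : 0 ≤ L ^ c' := by positivity
    calc C' * a * L ^ c' ≤ C1 * a * L ^ c' := by gcongr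
      _ ≤ C1 * a * P := by gcongr
  push Not at hb
  -- small `a`
  have haa : a₀ < a := by
    by_contra hcon
    push Not at hcon
    have hcon' : (a : ℝ) ≤ a₀ := by exact_mod_cast hcon
    have h2 : C * P ≤ b := by
      have h3 : (a : ℝ) * (C * P) ≤ a * b := by linarith
      exact le_of_mul_le_mul_left h3 (by linarith)
    have h3 : C1 * a * P ≤ C * P := by
      have h5 : C1 * a ≤ C := by
        have h6 : C1 * a ≤ C1 * a₀ := by gcongr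
        rw [hC]
        linarith
      gcongr
    have h9 : 0 ≤ C * P := by positivity
    linarith
  have hQa : K0 * P ^ 27 ≤ a := ha1 haa.le
  have hP27 : 1 ≤ P ^ 27 := one_le_pow₀ hP0
  have hpA : 0 ≤ 432 * E0 ^ 4 * (C1 + 2) ^ 3 * P ^ 27 := by positivity
  have hsplit : K0 * P ^ 27 = 432 * E0 ^ 4 * (C1 + 2) ^ 3 * P ^ 27 + 2 * P ^ 27 := by
    rw [hK0]
    ring
  have hQa1 : 432 * E0 ^ 4 * (C1 + 2) ^ 3 * P ^ 27 ≤ a := by linarith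
  have ha2 : 2 ≤ a := by
    have h5 : (2 : ℝ) ≤ a := by linarith
    exact_mod_cast h5
  by_cases hfew : D2 lam + a ≤ b + 1
  · exact few_of hF (by omega) lam ha2 hfew
  have ha3 : (0 : ℝ) < (a : ℝ) ^ 2 := by positivity
  have hpos : ∀ l : Fin r, 0 < (tp (tl lam) l : ℝ) - ta (tl lam) 0 := by
    intro l
    by_contra hcon
    push Not at hcon
    have h1 : 0 ≤ C₀ * L ^ c₀ := by positivity
    have h2 := mul_nonpos_of_nonneg_of_nonpos h1 hcon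
    have h3 := hlam l
    linarith
  have ht3 : (D2 lam : ℝ) ≤ C1 * P * (a : ℝ) ^ 2 := by
    have h2 : (a : ℝ) * b ≤ a * (C1 * a * P) := by gcongr
    calc (D2 lam : ℝ) ≤ a * b := by linarith
      _ ≤ a * (C1 * a * P) := h2
      _ = C1 * P * (a : ℝ) ^ 2 := by ring
  obtain ⟨hv1, hv2⟩ := numsV haR hP0 hC1 ht3
  refine driveZ hE hsum hanti hr2 ha (by omega) h17 hT (Q := Q0 * P) (R := 40 * (C₀ + 1) * P)
    (V := (C1 + 2) * P * a) ?_ ?_ ?_ ?_ ?_ ?_ ?_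
  · have : (1 : ℝ) * 1 ≤ (C₀ + 1) * P := by
      have h3 : (1 : ℝ) ≤ C₀ + 1 := by linarith
      gcongr
    linarith
  · have h1 : C₀ * L ^ c₀ ≤ C₀ * P := by gcongr
    have h2 : 0 ≤ C₀ * P := by positivity
    linarith
  · have h1 : 0 ≤ C1 * P := by positivity
    rw [hQ0]
    linarith
  · intro l
    have h0 := hpos l
    have h1 : (a : ℝ) ^ 2 ≤ C₀ * P * ((tp (tl lam) l : ℝ) - ta (tl lam) 0) := by
      refine (hlam l).trans ?_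
      gcongr
    have h2 : 0 ≤ P * ((tp (tl lam) l : ℝ) - ta (tl lam) 0) := by positivity
    linarith
  · exact hv1
  · exact hv2
  · have hW : 8 * (Q0 * P) + (Q0 * P) ^ 2 * (40 * (C₀ + 1) * P) + 1 + 40 * (C₀ + 1) * P ≤
        M1 * P ^ 3 := by
      have h2 : P ≤ P ^ 3 := le_self_pow₀ hP0 (by norm_num)
      have h3 : 1 ≤ P ^ 3 := one_le_pow₀ hP0
      have h5 : 8 * Q0 * P ≤ 8 * Q0 * P ^ 3 := by gcongr
      have h6 : 40 * (C₀ + 1) * P ≤ 40 * (C₀ + 1) * P ^ 3 := by gcongr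
      rw [hM1]
      calc 8 * (Q0 * P) + (Q0 * P) ^ 2 * (40 * (C₀ + 1) * P) + 1 + 40 * (C₀ + 1) * P
          = 8 * Q0 * P + 40 * Q0 ^ 2 * (C₀ + 1) * P ^ 3 + 1 + 40 * (C₀ + 1) * P := by ring
        _ ≤ 8 * Q0 * P ^ 3 + 40 * Q0 ^ 2 * (C₀ + 1) * P ^ 3 + P ^ 3 +
            40 * (C₀ + 1) * P ^ 3 := by linarith
        _ = (8 * Q0 + 40 * Q0 ^ 2 * (C₀ + 1) + 1 + 40 * (C₀ + 1)) * P ^ 3 := by ring
    have hE1 : 16 * (Q0 * P) ^ 2 * (40 * (C₀ + 1) * P) *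
        (8 * (Q0 * P) + (Q0 * P) ^ 2 * (40 * (C₀ + 1) * P) + 1 + 40 * (C₀ + 1) * P) ≤
        E0 * P ^ 6 := by
      calc 16 * (Q0 * P) ^ 2 * (40 * (C₀ + 1) * P) *
            (8 * (Q0 * P) + (Q0 * P) ^ 2 * (40 * (C₀ + 1) * P) + 1 + 40 * (C₀ + 1) * P)
          ≤ 16 * (Q0 * P) ^ 2 * (40 * (C₀ + 1) * P) * (M1 * P ^ 3) := by gcongr
        _ = E0 * P ^ 6 := by rw [hE0]; ring
    have hE2 : 0 ≤ 16 * (Q0 * P) ^ 2 * (40 * (C₀ + 1) * P) *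
        (8 * (Q0 * P) + (Q0 * P) ^ 2 * (40 * (C₀ + 1) * P) + 1 + 40 * (C₀ + 1) * P) := by
      positivity
    calc 432 * (16 * (Q0 * P) ^ 2 * (40 * (C₀ + 1) * P) *
          (8 * (Q0 * P) + (Q0 * P) ^ 2 * (40 * (C₀ + 1) * P) + 1 + 40 * (C₀ + 1) * P)) ^ 4 *
          ((C1 + 2) * P * a) ^ 3
        ≤ 432 * (E0 * P ^ 6) ^ 4 * ((C1 + 2) * P * a) ^ 3 := by gcongr
      _ = (432 * E0 ^ 4 * (C1 + 2) ^ 3 * P ^ 27) * (a : ℝ) ^ 3 := by ring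
      _ ≤ (a : ℝ) * (a : ℝ) ^ 3 := by gcongr
      _ = (a : ℝ) ^ 4 := by ring

end Vale.Agent.P181.TR.H333
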