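import Vale.Agent.P181.TR.H333.Defs
import Vale.Agent.P181.TR.H850.TLX

set_option autoImplicit false

/-!
# P181, TR (Z9): every shape whose first row exceeds the second one by `18 a ^ 2`, `b ≥ 5 a`

As in helper850's `TLX`, but the LAST large gap `λ_i - λ_(i+1)`, `1 ≤ i ≤ X`, is used: there are
at most `a ^ 2 / 60` boxes below it.
-/

open Finset

namespace Vale.Agent.P181.TR.H333

open Vale.Agent.P181.H280 (plethMult)
open Vale.Agent.P181.T4 (ex ex_of_lt ex_anti)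
open Vale.Agent.P181.SZ (tl)
open Vale.Agent.P181.PL (dn PolyS)
open Vale.Agent.P181.H467.NT (LinS)
open Vale.Agent.P181.TL (TwoLongPA dn2)
open Vale.Agent.P181.TL.H850 (few shape dn_two)
open Vale.Agent.P181.TR.H850 (FatS sum_ex ex_big gap pad1 pad1_mult pad1_D2 D2_le)

/-- The last large gap, with few boxes below it. -/
lemma gapL {a b n : ℕ} {lam : Fin n → ℕ} {X : ℝ} (hanti : Antitone lam) (hX : 1 ≤ X) (ha : 0 < a)
    (hb : 0 < b) (h1 : ∑ i, ((min b (lam i) : ℕ) : ℝ) < X * b) (h2 : (b : ℝ) < X * a)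
    (h3 : (a : ℝ) ^ 2 < X * dn lam 1) (h4 : 360 * X ^ 4 ≤ a) :
    ∃ i : ℕ, 1 ≤ i ∧ i < n ∧ (i : ℝ) ≤ X ∧
      (a : ℝ) ^ 2 ≤ 240 * X ^ 3 * ((ex lam i : ℝ) - ex lam (i + 1)) ∧
      ∀ K : ℕ, 60 * (i * ex lam (i + 1) + ∑ l ∈ range K, ex lam (i + 1 + l)) ≤ a ^ 2 := by
  classical
  have haR : (0 : ℝ) < a := by exact_mod_cast ha
  have hbR : (0 : ℝ) < b := by exact_mod_cast hb
  have hX0 : 0 < X := by linarith
  have hX3 : (0 : ℝ) < X ^ 3 := by positivity
  have hX4 : (0 : ℝ) < X ^ 4 := by positivity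
  obtain ⟨N, hN⟩ : ∃ N : ℕ, N = ⌊X⌋₊ := ⟨_, rfl⟩
  have hN1 : (N : ℝ) ≤ X := by
    rw [hN]
    exact Nat.floor_le hX0.le
  have hN2 : X < (N : ℝ) + 1 := by
    rw [hN]
    exact Nat.lt_floor_add_one X
  obtain ⟨i0, hi01, hi0n, hi0X, hi0g⟩ := gap hanti hX ha hb h1 h2 h3 (by linarith)
  have hi0N : i0 ≤ N := by
    rw [hN]
    exact Nat.le_floor hi0X
  obtain ⟨S, hS⟩ : ∃ S : Finset ℕ, S = (Icc 1 N).filter
    (fun i => (a : ℝ) ^ 2 ≤ 240 * X ^ 3 * ((ex lam i : ℝ) - ex lam (i + 1))) := ⟨_, rfl⟩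
  have hmem : ∀ i, i ∈ S ↔ (1 ≤ i ∧ i ≤ N) ∧
      (a : ℝ) ^ 2 ≤ 240 * X ^ 3 * ((ex lam i : ℝ) - ex lam (i + 1)) := fun i => by
    rw [hS, Finset.mem_filter, Finset.mem_Icc]
  have hexm : ∀ {i j : ℕ}, i ≤ j → ex lam j ≤ ex lam i := fun h => ex_anti hanti h
  have hi0S : i0 ∈ S := by
    rw [hmem]
    refine ⟨⟨hi01, hi0N⟩, hi0g.trans ?_⟩
    have h5 : (ex lam (i0 + 1) : ℝ) ≤ ex lam i0 := by exact_mod_cast hexm (Nat.le_succ i0)
    have h6 : 0 ≤ X ^ 3 * ((ex lam i0 : ℝ) - ex lam (i0 + 1)) :=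
      mul_nonneg hX3.le (by linarith)
    linarith
  obtain ⟨i, hiS, himax⟩ : ∃ i ∈ S, ∀ j ∈ S, j ≤ i :=
    ⟨S.max' ⟨i0, hi0S⟩, S.max'_mem _, fun j hj => S.le_max' j hj⟩
  obtain ⟨⟨hi1, hiN⟩, hig⟩ := (hmem i).1 hiS
  have hin : i < n := by
    by_contra hc
    rw [ex_big lam (by omega), ex_big lam (by omega)] at hig
    simp only [Nat.cast_zero, sub_zero, mul_zero] at hig
    have : (0 : ℝ) < (a : ℝ) ^ 2 := by positivity
    linarith
  have hiX : (i : ℝ) ≤ X := le_trans (by exact_mod_cast hiN) hN1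
  refine ⟨i, hi1, hin, hiX, hig, ?_⟩
  -- the row `N` is short
  have hSn : ∑ i, ((min b (lam i) : ℕ) : ℝ) = ∑ i ∈ range n, ((min b (ex lam i) : ℕ) : ℝ) :=
    sum_ex lam (fun _ x => ((min b x : ℕ) : ℝ))
  have hrow : ex lam N < b := by
    by_contra hc
    push Not at hc
    have hNn : N < n := by
      by_contra hcc
      rw [ex_big lam (by omega)] at hc
      omega
    have e4 : ∑ i ∈ range (N + 1), (b : ℝ) ≤ ∑ i ∈ range n, ((min b (ex lam i) : ℕ) : ℝ) := by
      calc ∑ i ∈ range (N + 1), (b : ℝ) = ∑ i ∈ range (N + 1), ((min b (ex lam i) : ℕ) : ℝ) := by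
            refine Finset.sum_congr rfl fun i hi => ?_
            have e5 : ex lam N ≤ ex lam i := hexm (by
              have := Finset.mem_range.1 hi
              omega)
            rw [min_eq_left (hc.trans e5)]
        _ ≤ _ := by
            refine Finset.sum_le_sum_of_subset_of_nonneg ?_ fun i _ _ => Nat.cast_nonneg _
            exact Finset.range_subset_range.2 (by omega)
    rw [Finset.sum_const, Finset.card_range, nsmul_eq_mul, ← hSn, Nat.cast_add, Nat.cast_one] at e4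
    have e5 : X * (b : ℝ) < ((N : ℝ) + 1) * b := mul_lt_mul_of_pos_right hN2 hbR
    linarith
  -- the gaps behind `i`
  have htel : ∀ M, i + M ≤ N →
      240 * X ^ 3 * ((ex lam (i + 1) : ℝ) - ex lam (i + 1 + M)) ≤ M * (a : ℝ) ^ 2 := by
    intro M
    induction M with
    | zero =>
      intro _
      simp
    | succ M ih =>
      intro hM
      have e1 := ih (by omega)
      have e2 : 240 * X ^ 3 * ((ex lam (i + 1 + M) : ℝ) - ex lam (i + 1 + M + 1)) <
          (a : ℝ) ^ 2 := by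
        by_contra hc
        push Not at hc
        have e3 := himax (i + 1 + M) ((hmem _).2 ⟨⟨by omega, by omega⟩, hc⟩)
        omega
      have e4 : i + 1 + (M + 1) = i + 1 + M + 1 := by omega
      rw [e4]
      push_cast
      nlinarith [e1, e2]
  have e3 := htel (N - i) (by omega)
  rw [show i + 1 + (N - i) = N + 1 by omega] at e3
  have e5 : (ex lam (N + 1) : ℝ) ≤ b := by
    exact_mod_cast (lt_of_le_of_lt (hexm (Nat.le_succ N)) hrow).le
  have e6 : ((N - i : ℕ) : ℝ) ≤ X := le_trans (by exact_mod_cast Nat.sub_le N i) hN1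
  -- row `i + 1`
  have e7 : 240 * X ^ 3 * (ex lam (i + 1) : ℝ) ≤ X * (a : ℝ) ^ 2 + 240 * X ^ 3 * b := by
    have e8 : ((N - i : ℕ) : ℝ) * (a : ℝ) ^ 2 ≤ X * (a : ℝ) ^ 2 :=
      mul_le_mul_of_nonneg_right e6 (by positivity)
    have e9 : 240 * X ^ 3 * (ex lam (N + 1) : ℝ) ≤ 240 * X ^ 3 * b :=
      mul_le_mul_of_nonneg_left e5 (by positivity)
    nlinarith
  have e10 : 240 * X ^ 2 * (ex lam (i + 1) : ℝ) ≤ (a : ℝ) ^ 2 + 240 * X ^ 2 * b := by
    have e11 : X * (240 * X ^ 2 * (ex lam (i + 1) : ℝ)) ≤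
        X * ((a : ℝ) ^ 2 + 240 * X ^ 2 * b) := by
      calc X * (240 * X ^ 2 * (ex lam (i + 1) : ℝ)) = 240 * X ^ 3 * (ex lam (i + 1) : ℝ) := by ring
        _ ≤ X * (a : ℝ) ^ 2 + 240 * X ^ 3 * b := e7
        _ = _ := by ring
    exact le_of_mul_le_mul_left e11 hX0
  have hXX : 1 * X ≤ X * X := mul_le_mul_of_nonneg_right hX hX0.le
  have e12 : 240 * (X * (ex lam (i + 1) : ℝ)) ≤ (a : ℝ) ^ 2 + 240 * (X * b) := by
    have e13 : X * (240 * (X * (ex lam (i + 1) : ℝ))) ≤ X * ((a : ℝ) ^ 2 + 240 * (X * b)) := by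
      have e14 : (a : ℝ) ^ 2 ≤ X * (a : ℝ) ^ 2 := by
        have := mul_le_mul_of_nonneg_right hX (show (0 : ℝ) ≤ (a : ℝ) ^ 2 by positivity)
        linarith
      calc X * (240 * (X * (ex lam (i + 1) : ℝ))) = 240 * X ^ 2 * (ex lam (i + 1) : ℝ) := by ring
        _ ≤ (a : ℝ) ^ 2 + 240 * X ^ 2 * b := e10
        _ ≤ X * (a : ℝ) ^ 2 + 240 * X ^ 2 * b := by linarith
        _ = _ := by ring
    exact le_of_mul_le_mul_left e13 hX0
  intro K
  -- the boxes behind row `i`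
  have hg : ∀ j, ex lam j ≤ (if j < N then ex lam (i + 1) else 0) + min b (ex lam j) ∨ j ≤ i := by
    intro j
    rcases Nat.lt_or_ge i j with hj | hj
    · left
      by_cases hjN : j < N
      · rw [if_pos hjN]
        have := hexm (i := i + 1) (j := j) (by omega)
        omega
      · rw [if_neg hjN]
        have := hexm (i := N) (j := j) (by omega)
        omega
    · right
      exact hj
  have hsum1 : ∑ l ∈ range K, ex lam (i + 1 + l) ≤
      N * ex lam (i + 1) + ∑ j ∈ range n, min b (ex lam j) := by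
    have e15 : ∑ l ∈ range K, ex lam (i + 1 + l) ≤
        ∑ l ∈ range K, ((if i + 1 + l < N then ex lam (i + 1) else 0) +
          min b (ex lam (i + 1 + l))) := by
      refine Finset.sum_le_sum fun l _ => ?_
      rcases hg (i + 1 + l) with h | h
      · exact h
      · omega
    refine e15.trans ?_
    rw [Finset.sum_add_distrib]
    refine Nat.add_le_add ?_ ?_
    · rw [← Finset.sum_filter, Finset.sum_const, smul_eq_mul]
      refine Nat.mul_le_mul_right _ ?_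
      have e16 : (Finset.filter (fun l => i + 1 + l < N) (range K)).card ≤ (range N).card := by
        refine Finset.card_le_card fun l hl => ?_
        rw [Finset.mem_filter] at hl
        rw [Finset.mem_range]
        omega
      rwa [Finset.card_range] at e16
    · have e17 : ∑ l ∈ range K, min b (ex lam (i + 1 + l)) =
          ∑ j ∈ (range K).map (addLeftEmbedding (i + 1)), min b (ex lam j) := by
        rw [Finset.sum_map]
        rfl
      rw [e17]
      refine Finset.sum_le_sum_of_ne_zero fun j _ hj => ?_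
      rw [Finset.mem_range]
      by_contra hc
      apply hj
      rw [ex_big lam (by omega), Nat.min_zero]
  have hsum2 : ((∑ j ∈ range n, min b (ex lam j) : ℕ) : ℝ) ≤ X * b := by
    push_cast
    have e18 := hSn
    push_cast at e18
    rw [← e18]
    push_cast at h1
    exact h1.le
  have e19 : ((i * ex lam (i + 1) + ∑ l ∈ range K, ex lam (i + 1 + l) : ℕ) : ℝ) ≤
      2 * (X * (ex lam (i + 1) : ℝ)) + X * b := by
    have e20 : ((∑ l ∈ range K, ex lam (i + 1 + l) : ℕ) : ℝ) ≤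
        (N : ℝ) * ex lam (i + 1) + ((∑ j ∈ range n, min b (ex lam j) : ℕ) : ℝ) := by
      exact_mod_cast hsum1
    have e21 : (N : ℝ) * ex lam (i + 1) ≤ X * ex lam (i + 1) :=
      mul_le_mul_of_nonneg_right hN1 (Nat.cast_nonneg _)
    have e22 : (i : ℝ) * ex lam (i + 1) ≤ X * ex lam (i + 1) :=
      mul_le_mul_of_nonneg_right hiX (Nat.cast_nonneg _)
    rw [Nat.cast_add, Nat.cast_mul]
    linarith
  have e23 : X * (b : ℝ) ≤ X ^ 4 * a := by
    have e24 : X * (b : ℝ) ≤ X * (X * a) := mul_le_mul_of_nonneg_left h2.le hX0.le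
    have e25 : X * (X * (a : ℝ)) ≤ X ^ 4 * a := by
      have e26 : X ^ 2 ≤ X ^ 4 := pow_le_pow_right₀ hX (by norm_num)
      calc X * (X * (a : ℝ)) = X ^ 2 * a := by ring
        _ ≤ X ^ 4 * a := mul_le_mul_of_nonneg_right e26 haR.le
    linarith
  have e27 : 360 * (X * (b : ℝ)) ≤ (a : ℝ) ^ 2 := by
    calc 360 * (X * (b : ℝ)) ≤ 360 * (X ^ 4 * a) := by linarith
      _ = 360 * X ^ 4 * a := by ring
      _ ≤ (a : ℝ) * a := mul_le_mul_of_nonneg_right h4 haR.le
      _ = (a : ℝ) ^ 2 := by ring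
  have e28 : 60 * ((i * ex lam (i + 1) + ∑ l ∈ range K, ex lam (i + 1 + l) : ℕ) : ℝ) ≤
      (a : ℝ) ^ 2 := by linarith
  exact_mod_cast e28

/-- **(Z9)** -/
theorem tlz (hF : FatS) (hL : LinS) (hP : PolyS) (hA : TwoLongPA) (hR : TwoLongZ) : TLZ := by
  obtain ⟨CF, cF, hCF, hF⟩ := hF
  obtain ⟨CL, cL, hCL, hL⟩ := hL
  obtain ⟨CP, cP, hCP, hP⟩ := hP
  obtain ⟨K, hK⟩ : ∃ K : ℝ, K = 2 * CF + CL + CP + 1 := ⟨_, rfl⟩
  have hK1 : 1 ≤ K := by linarith
  obtain ⟨k, hk⟩ : ∃ k : ℕ, k = cF + cL + cP := ⟨_, rfl⟩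
  obtain ⟨CA, cA, hCA, hcA, hA⟩ := hA (240 * K ^ 3) ((3 * k : ℕ) : ℝ) (by positivity)
    (Nat.cast_nonneg _)
  obtain ⟨CR, cR, hCR, hcR, hR⟩ := hR (240 * K ^ 3) ((3 * k : ℕ) : ℝ) (by positivity)
    (Nat.cast_nonneg _)
  refine ⟨CA + CR + 360 * K ^ 5, ⌈cA⌉₊ + ⌈cR⌉₊ + 5 * k, by positivity, ?_⟩
  intro a b hab n lam hdom hD
  by_cases hz : plethMult a b n lam = 0
  · rw [hz]
    exact Nat.zero_le _
  rcases Nat.eq_zero_or_pos (dn lam 1) with hw | hw
  · apply hL a b hab n lam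
    rw [hw, Nat.cast_zero, mul_zero]
    positivity
  obtain ⟨hn, ha⟩ := shape hz hw
  obtain ⟨hanti, hsum, -⟩ := H530.zero_stmt a b n lam hz
  have hfew : a + D2 lam ≤ b + 1 → plethMult a b n lam ≤ plethMult b a n lam := by
    intro h
    obtain ⟨j, rfl⟩ := Nat.exists_eq_add_of_le' hn
    have e1 : D2 lam = dn2 lam := dn_two lam
    rw [e1] at h
    exact few lam ha h
  rcases hD with hD | hD
  swap
  · exact hfew hD
  rcases Nat.lt_or_ge n 3 with hn3 | hn3
  · obtain rfl : n = 2 := by omega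
    apply hfew
    have e1 : D2 lam = 0 := by
      unfold D2
      rw [Fin.sum_univ_two]
      simp
    omega
  have hb : 0 < b := by omega
  have haR : (0 : ℝ) < a := by
    exact_mod_cast (by omega : 0 < a)
  have hbR : (0 : ℝ) < b := by exact_mod_cast hb
  obtain ⟨L, hLdef⟩ : ∃ L : ℝ, L = 1 + Real.log a := ⟨_, rfl⟩
  have hL1 : 1 ≤ L := by
    rw [hLdef]
    linarith [Real.log_natCast_nonneg a]
  have hpow : ∀ {i j : ℕ}, i ≤ j → L ^ i ≤ L ^ j := fun h => pow_le_pow_right₀ hL1 h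
  obtain ⟨X, hX⟩ : ∃ X : ℝ, X = K * L ^ k := ⟨_, rfl⟩
  have hLk : 1 ≤ L ^ k := one_le_pow₀ hL1
  have hX1 : 1 ≤ X := by
    rw [hX]
    nlinarith
  have hXle : ∀ {C : ℝ} {c : ℕ}, 0 ≤ C → C ≤ K → c ≤ k → C * L ^ c ≤ X := by
    intro C c h0 h1 h2
    rw [hX]
    exact mul_le_mul h1 (hpow h2) (by positivity) (by linarith)
  by_cases hlin : CL * (1 + Real.log a) ^ cL * (dn lam 1 : ℝ) ≤ (a : ℝ) ^ 2
  · exact hL a b hab n lam hlin
  by_cases hpol : CP * a * (1 + Real.log a) ^ cP ≤ b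
  · exact hP a b hpol n lam
  by_cases hfat : CF * (1 + Real.log a) ^ cF * (b : ℝ) ^ 2 ≤
      ((b : ℝ) - a) * ∑ i, ((min b (lam i) : ℕ) : ℝ)
  · exact hF a b n lam (by omega) hfat
  push Not at hlin hpol hfat
  rw [← hLdef] at hlin hpol hfat hD
  have h3 : (a : ℝ) ^ 2 < X * dn lam 1 :=
    lt_of_lt_of_le hlin (mul_le_mul_of_nonneg_right
      (hXle hCL.le (by linarith) (by omega)) (Nat.cast_nonneg _))
  have h2 : (b : ℝ) < X * a := by
    refine lt_of_lt_of_le hpol ?_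
    have := mul_le_mul_of_nonneg_right (hXle hCP.le (by linarith) (by omega : cP ≤ k)) haR.le
    calc CP * a * L ^ cP = CP * L ^ cP * a := by ring
      _ ≤ X * a := this
  have h1 : ∑ i, ((min b (lam i) : ℕ) : ℝ) < X * b := by
    obtain ⟨S, hS⟩ : ∃ S : ℝ, S = ∑ i, ((min b (lam i) : ℕ) : ℝ) := ⟨_, rfl⟩
    have hS0 : 0 ≤ S := by
      rw [hS]
      exact Finset.sum_nonneg fun i _ => Nat.cast_nonneg _
    rw [← hS] at hfat ⊢
    have e1 : (5 : ℝ) * a ≤ b := by exact_mod_cast hab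
    have e2 : (b : ℝ) * S ≤ 2 * (((b : ℝ) - a) * S) := by nlinarith
    have e3 : 2 * CF * L ^ cF ≤ X := hXle (by positivity) (by linarith) (by omega)
    have e4 : 2 * CF * L ^ cF * (b : ℝ) ^ 2 ≤ X * (b : ℝ) ^ 2 :=
      mul_le_mul_of_nonneg_right e3 (by positivity)
    have e5 : (b : ℝ) * S < b * (X * b) := by nlinarith
    exact lt_of_mul_lt_mul_left e5 hbR.le
  -- `a` is large
  have hbig : 360 * K ^ 5 * L ^ (5 * k) ≤
      (CA + CR + 360 * K ^ 5) * L ^ (⌈cA⌉₊ + ⌈cR⌉₊ + 5 * k) :=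
    mul_le_mul (by linarith) (hpow (by omega)) (by positivity) (by positivity)
  have h4 : 360 * X ^ 4 ≤ a := by
    have e1 : (D2 lam : ℝ) ≤ (a : ℝ) * b := by
      have := D2_le lam
      rw [hsum] at this
      exact_mod_cast this
    have e2 : 360 * X ^ 5 * a ≤ a * (X * a) := by
      calc 360 * X ^ 5 * a = 360 * K ^ 5 * L ^ (5 * k) * a := by
            rw [hX, mul_pow, ← pow_mul, Nat.mul_comm k 5]
            ring
        _ ≤ (CA + CR + 360 * K ^ 5) * L ^ (⌈cA⌉₊ + ⌈cR⌉₊ + 5 * k) * a :=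
            mul_le_mul_of_nonneg_right hbig haR.le
        _ ≤ D2 lam := hD
        _ ≤ (a : ℝ) * b := e1
        _ ≤ a * (X * a) := mul_le_mul_of_nonneg_left h2.le haR.le
    have e3 : X * a * (360 * X ^ 4) ≤ X * a * a := by
      calc X * a * (360 * X ^ 4) = 360 * X ^ 5 * a := by ring
        _ ≤ a * (X * a) := e2
        _ = X * a * a := by ring
    exact le_of_mul_le_mul_left e3 (by positivity)
  obtain ⟨i, hi1, hin, hiX, hgap, hT⟩ := gapL hanti hX1 (by omega) hb h1 h2 h3 h4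
  have hX3 : 240 * X ^ 3 = 240 * K ^ 3 * (1 + Real.log a) ^ ((3 * k : ℕ) : ℝ) := by
    rw [Real.rpow_natCast, ← hLdef, hX, mul_pow, ← pow_mul, Nat.mul_comm k 3]
    ring
  have hrp : ∀ {C c : ℝ}, 0 < C → C ≤ CA + CR + 360 * K ^ 5 → ⌈c⌉₊ ≤ ⌈cA⌉₊ + ⌈cR⌉₊ + 5 * k →
      C * (1 + Real.log a) ^ c * a ≤ D2 lam := by
    intro C c h0 h5 h6
    rw [← hLdef]
    refine le_trans ?_ hD
    refine mul_le_mul_of_nonneg_right ?_ haR.le
    refine mul_le_mul h5 ?_ (by positivity) (by positivity)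
    rw [← Real.rpow_natCast]
    exact Real.rpow_le_rpow_of_exponent_le hL1 ((Nat.le_ceil c).trans (by exact_mod_cast h6))
  have hdom' := hdom (by omega)
  have hmax : (0 : ℝ) < 360 * K ^ 5 := by positivity
  rcases Nat.lt_or_ge i 2 with hi2 | hi2
  · -- two long rows
    obtain rfl : i = 1 := by omega
    obtain ⟨j, rfl⟩ := Nat.exists_eq_add_of_le' hn3
    have v1 : ex lam 1 = lam 1 := by
      rw [ex_of_lt lam (by omega)]
      exact congrArg lam (Fin.ext (Nat.mod_eq_of_lt (show 1 < j + 3 by omega)).symm)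
    have v2 : ex lam (1 + 1) = lam 2 := by
      rw [ex_of_lt lam (by omega)]
      exact congrArg lam (Fin.ext (Nat.mod_eq_of_lt (show 2 < j + 3 by omega)).symm)
    have e1 : D2 lam = dn2 (k := j + 1) lam := dn_two (k := j + 1) lam
    refine hA a b j lam hanti hsum (by omega) ?_ ?_ ?_
    · rw [← hX3, ← v1, ← v2]
      exact hgap
    · rw [← e1]
      exact hrp hCA (by linarith) (by omega)
    · have e2 : D2 lam ≤ ∑ l ∈ range (j + 3), ex lam (1 + 1 + l) := by
        have e3 : D2 lam = ∑ i ∈ range (j + 3), if 2 ≤ i then ex lam i else 0 := by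
          rw [Finset.sum_range, D2]
          exact Finset.sum_congr rfl fun i _ => by rw [ex_of_lt lam i.2]
        rw [e3, Finset.sum_range_succ', Finset.sum_range_succ', if_neg (by omega),
          if_neg (by omega)]
        have e4 : ∑ l ∈ range (j + 1), (if 2 ≤ l + 1 + 1 then ex lam (l + 1 + 1) else 0) =
            ∑ l ∈ range (j + 1), ex lam (1 + 1 + l) :=
          Finset.sum_congr rfl fun l _ => by
            rw [if_pos (by omega), show l + 1 + 1 = 1 + 1 + l by omega]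
        rw [e4, Nat.add_zero, Nat.add_zero]
        exact Finset.sum_le_sum_of_subset (Finset.range_subset_range.2 (by omega))
      have e5 := hT (j + 3)
      rw [← e1, ← v1, ex_of_lt lam (by omega)]
      have e6 : lam ⟨1, by omega⟩ + 18 * a ^ 2 ≤ lam ⟨0, by omega⟩ := hdom'
      change lam ⟨1, by omega⟩ + 60 * D2 lam + 17 * a ^ 2 ≤ lam ⟨0, by omega⟩
      omega
  · -- at least three long rows
    obtain ⟨j, rfl⟩ : ∃ j, n = j + 1 + i := ⟨n - 1 - i, by omega⟩
    have hz' : plethMult a b (j + 1 + i + 1) (pad1 lam) ≠ 0 := by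
      rw [pad1_mult]
      exact hz
    obtain ⟨hanti', hsum', -⟩ := H530.zero_stmt a b _ (pad1 lam) hz'
    have hta : ta (tl (pad1 lam)) 0 = ex lam (i + 1) := rfl
    have hr := hR a b j i (pad1 lam) hanti' hsum' (by omega) hi2 ?_ ?_ ?_ ?_ ?_
    · rwa [pad1_mult, pad1_mult] at hr
    · rw [← hX3]
      refine hiX.trans ?_
      have e2 : X ≤ X ^ 3 := le_self_pow₀ hX1 (by norm_num)
      linarith
    · intro l
      rw [← hX3]
      refine hgap.trans (mul_le_mul_of_nonneg_left ?_ (by positivity))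
      have e3 : tp (tl (pad1 lam)) l = ex lam ((l : ℕ) + 1) := rfl
      have e4 : ex lam i ≤ ex lam ((l : ℕ) + 1) := ex_anti hanti (by have := l.2; omega)
      have e5 : (ex lam i : ℝ) ≤ ex lam ((l : ℕ) + 1) := by exact_mod_cast e4
      rw [hta, e3]
      linarith
    · have e8 : ∑ l, ta (tl (pad1 lam)) l = ∑ l ∈ range (j + 1), ex lam (i + 1 + l) := by
        rw [Finset.sum_range]
        refine Finset.sum_congr rfl fun l _ => ?_
        have e9 : ta (tl (pad1 lam)) l = ex lam (i + (l : ℕ) + 1) := rfl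
        rw [e9]
        congr 1
        omega
      have e10 := hT (j + 1)
      rw [e8, hta]
      omega
    · rw [pad1_D2]
      exact hrp hCR (by linarith) (by omega)
    · have e6 : tl (pad1 lam) 0 = lam ⟨1, by omega⟩ := by
        have : tl (pad1 lam) 0 = ex lam 1 := rfl
        rw [this, ex_of_lt lam (by omega)]
      have e7 : pad1 lam 0 = lam ⟨0, by omega⟩ := by
        have : pad1 lam 0 = ex lam 0 := rfl
        rw [this, ex_of_lt lam (by omega)]
      rw [e6, e7]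
      have e11 : lam ⟨1, by omega⟩ + 18 * a ^ 2 ≤ lam ⟨0, by omega⟩ := hdom'
      omega

end Vale.Agent.P181.TR.H333
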