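import Vale.Agent.P181.TR.H248.All
import Vale.Agent.P181.TR.H333.CoreZ
import Vale.Agent.P181.TR.H333.T9Z
import Vale.Agent.P181.TR.H333.TLZ

set_option autoImplicit false

/-!
# P181, TR: the closed theorem `TLZ`
-/

namespace Vale.Agent.P181.TR.H333

open Vale.Agent.P181.TR

/-- **(Z7)** without hypotheses. -/
theorem coreZ_closed : CoreZ := coreZ H283.upR TL.H639.balB H248.lowR_closed H118.growR

/-- **(Z8)** without hypotheses. -/
theorem twoLongZ_closed : TwoLongZ :=
  twoLongZ_of coreZ_closed TL.H797.plh_closed TL.H797.fewH_closed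

/-- **(Z9)** every shape with `λ_1 - λ_2 ≥ 18 a ^ 2`, `b ≥ 5 a`. -/
theorem tlz_closed : TLZ :=
  tlz FD.fatLog H467.NT.linS PLX.polyS TL.H797.twoLongPA_closed twoLongZ_closed

end Vale.Agent.P181.TR.H333
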