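import Vale.Agent.P181.TR.Defs

set_option autoImplicit false

/-!
# P181, TR: the last gap (literals)

Only the gap below the last label row and the cells below it matter: the first row has to exceed
the second one by `18 a ^ 2`, no matter how many cells lie below row two.
-/

open MvPolynomial

namespace Vale.Agent.P181.TR

open Vale.Agent.P181.T4 (HW)
open Vale.Agent.P181.H280 (plethMult)
open Vale.Agent.P181.SZ
open Vale.Agent.P181.TL (KK)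

/-- **(Z7)** `CoreR` without `D2` in the condition on the first row. -/
def CoreZ : Prop := ∀ (a b k r q m Y t G : ℕ) (lam : Fin (k + 1 + r + 1) → ℕ),
  ∑ i, lam i = a * b → Antitone lam → 2 ≤ r → 16 * (r + 1) ≤ a → t = ∑ i, ta (tl lam) i →
  q = 5 + 16 * t / a ^ 2 → 8 * q ≤ m → 40 * q ≤ a → 1 ≤ Y → 16 * (q * Y * (m + r)) ≤ a →
  G = q * a * (q * Y * (m + r) + q * (a / m) + q + 3) + 8 * (r + 1) * a →
  (∀ l : Fin r, G + ta (tl lam) 0 ≤ tp (tl lam) l) →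
  b ≤ D2 lam + a → 27 * (2 * a + D2 lam) ^ 3 ≤ a ^ 3 * Y ^ 4 →
  tl lam 0 + 3 * q * a ^ 2 + 5 * (r * (ta (tl lam) 0 + G) + a * (r * (r + 1)) + t) ≤ lam 0 →
  plethMult a b (k + 1 + r + 1) lam ≤ plethMult b a (k + 1 + r + 1) lam

/-- **(Z8)** the polylogarithmic form: few cells below the last label row. -/
def TwoLongZ : Prop := ∀ C₀ c₀ : ℝ, 0 < C₀ → 0 ≤ c₀ → ∃ C c : ℝ, 0 < C ∧ 0 < c ∧
  ∀ (a b k r : ℕ) (lam : Fin (k + 1 + r + 1) → ℕ), Antitone lam → ∑ i, lam i = a * b → 0 < a →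
  2 ≤ r → (r : ℝ) ≤ C₀ * (1 + Real.log a) ^ c₀ →
  (∀ l : Fin r, (a : ℝ) ^ 2 ≤
    C₀ * (1 + Real.log a) ^ c₀ * ((tp (tl lam) l : ℝ) - ta (tl lam) 0)) →
  20 * (r * ta (tl lam) 0 + ∑ i, ta (tl lam) i) ≤ a ^ 2 →
  C * (1 + Real.log a) ^ c * a ≤ D2 lam →
  tl lam 0 + 17 * a ^ 2 ≤ lam 0 →
  plethMult a b (k + 1 + r + 1) lam ≤ plethMult b a (k + 1 + r + 1) lam

/-- **(Z9)** the union: every shape whose first row exceeds the second one by `18 a ^ 2`. -/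
def TLZ : Prop := ∃ (C : ℝ) (c : ℕ), 0 < C ∧ ∀ a b : ℕ, 5 * a ≤ b → ∀ (n : ℕ) (lam : Fin n → ℕ),
  (∀ h : 1 < n, lam ⟨1, h⟩ + 18 * a ^ 2 ≤ lam ⟨0, by omega⟩) →
  (C * (1 + Real.log a) ^ c * a ≤ D2 lam ∨ a + D2 lam ≤ b + 1) →
  plethMult a b n lam ≤ plethMult b a n lam

end Vale.Agent.P181.TR
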